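import Vale.Agent.P269.G2.Model
import Vale.Agent.P269.G2.H598.MTools
import Vale.Agent.P269.G2.H780.ZB0
import Vale.Agent.P269.G1.H660.Loop0

/-! The trace of the products of the operators (for [ZF]) -/

namespace Vale.Agent.P269.G2.H780.Lp

open Finset.HasAntidiagonal (antidiagonal)
open Vale.Agent.P269.CI
open Vale.Agent.P269.G1.H660.Lp (c1_mu c1pow_mu pairing_mu pairingInv_mu c1pow_zero c1pow_succ
  c1pow_succ' pInv_c1)

variable {X : CompleteIntersection} {F : ℕ → ℕ → List (Ins X) → ℂ}

/-- constants as a ring homomorphism -/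
noncomputable def cs (X : CompleteIntersection) : ℂ →+* RM X := ZB.cbHom (nx X)

theorem cb_eq (c : ℂ) : cb (nx X) c = cs X c := rfl

theorem smul_cs (c : ℂ) (f : RM X) : c • f = cs X c * f := H598.smul_RM c f

/-- the matrix of the pairing -/
noncomputable def pa (k l : Ix X) : RM X := cs X (pairing X k l)

/-- its inverse -/
noncomputable def pi' (k l : Ix X) : RM X := cs X (pairingInv X k l)

theorem pa_symm (he : Even X.dim) (k l : Ix X) : (pa k l : RM X) = pa l k := by
  unfold pa
  rw [H598.pairing_symm' X he]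

theorem pi_symm (he : Even X.dim) (k l : Ix X) : (pi' k l : RM X) = pi' l k := by
  unfold pi'
  rw [H598.pairingInv_symm' X he]

theorem sum_pa_pi (k j : Ix X) : ∑ l, (pa k l : RM X) * pi' l j = if k = j then 1 else 0 := by
  unfold pa pi'
  simp only [← map_mul, ← map_sum]
  rw [H598.pairing_inv_sum]
  by_cases h : k = j
  · rw [if_pos h, if_pos h, map_one]
  · rw [if_neg h, if_neg h, map_zero]

/-- lowering after raising -/
theorem low_raise (he : Even X.dim) (f : Ix X → RM X) (j : Ix X) :
    ∑ k, (pa k j : RM X) * ∑ l, pi' l k * f l = f j := by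
  simp only [Finset.mul_sum]
  rw [Finset.sum_comm]
  calc ∑ l : Ix X, ∑ k : Ix X, (pa k j : RM X) * (pi' l k * f l)
      = ∑ l : Ix X, (if j = l then 1 else 0) * f l := by
        refine Finset.sum_congr rfl fun l _ => ?_
        rw [← sum_pa_pi j l, Finset.sum_mul]
        refine Finset.sum_congr rfl fun k _ => ?_
        rw [pa_symm he k j, pi_symm he l k]; ring
    _ = f j := by simp

theorem Rpow_apply (i : ℕ) (c a : Ix X) :
    ((RBcl X (nx X)) ^ i) c a = cs X (c1pow X i a c) := by
  induction i generalizing c with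
  | zero =>
    rw [c1pow_zero, pow_zero, Matrix.one_apply]
    by_cases h : c = a
    · rw [if_pos h, if_pos h.symm, map_one]
    · rw [if_neg h, if_neg (Ne.symm h), map_zero]
  | succ i ih =>
    rw [pow_succ', Matrix.mul_apply, c1pow_succ, map_sum]
    refine Finset.sum_congr rfl fun j _ => ?_
    rw [ih j, map_mul, mul_comm]
    rfl

/-- `STB` is the adjoint of `SB` -/
theorem ST_apply (he : Even X.dim) (m : ℕ) (a k : Ix X) :
    STB F m a k = ∑ b, pi' b a * ∑ l, pa k l * SB (E0 X) F m l b := by
  rcases m with _ | n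
  · have e : ∀ b, ∑ l, (pa k l : RM X) * SB (E0 X) F 0 l b = pa k b := by
      intro b
      change ∑ l, (pa k l : RM X) * (1 : Matrix (Ix X) (Ix X) (RM X)) l b = _
      rw [Finset.sum_eq_single b]
      · rw [Matrix.one_apply_eq, mul_one]
      · intro l _ hl
        rw [Matrix.one_apply_ne hl, mul_zero]
      · simp
    simp only [e]
    have h := sum_pa_pi (X := X) k a
    calc STB F 0 a k = (1 : Matrix (Ix X) (Ix X) (RM X)) a k := rfl
      _ = if k = a then 1 else 0 := by
        rw [Matrix.one_apply]
        by_cases h : a = k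
        · rw [if_pos h, if_pos h.symm]
        · rw [if_neg h, if_neg (Ne.symm h)]
      _ = ∑ b, pi' b a * pa k b := by
        rw [← h]
        exact Finset.sum_congr rfl fun b _ => mul_comm _ _
  · have e : ∀ b, ∑ l, (pa k l : RM X) * SB (E0 X) F (n + 1) l b =
        VB (E0 X) F (b, n) (k, 0) := by
      intro b
      have e1 : ∀ l, SB (E0 X) F (n + 1) l b =
          ∑ b', pi' b' l * VB (E0 X) F (b, n) (b', 0) := by
        intro l
        change ∑ a : Ix X, pairingInv X a l • VB (E0 X) F (b, n) (a, 0) = _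
        refine Finset.sum_congr rfl fun b' _ => ?_
        rw [smul_cs]; rfl
      simp only [e1]
      have e2 := low_raise he (fun k => VB (E0 X) F (b, n) (k, 0)) k
      rw [← e2]
      refine Finset.sum_congr rfl fun l _ => ?_
      rw [pa_symm he k l]
    simp only [e]
    change ∑ b : Ix X, pairingInv X b a • VB (E0 X) F (b, n) (k, 0) = _
    refine Finset.sum_congr rfl fun b _ => ?_
    rw [smul_cs]; rfl

variable (hF : IsGW X F) (he : Even X.dim)

/-- the Euler matrix -/
noncomputable def UU : OB X (nx X) := QA.mat _ (EM hF he)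

theorem UU_apply (k i : Ix X) : UU hF he k i = ∑ x, EM hF he x * qc F x i k := rfl

/-- `E`-derivative of a two-point function -/
theorem euler_part (c b : Ix X) (n m : ℕ) :
    ∑ x, EM hF he x * sr (E0 X) (cor F 0 [(x, 0), (c, n), (b, m)]) =
      ∑ k, ∑ l, (UU hF he * SB (E0 X) F n) k c * SB (E0 X) F m l b * pa k l := by
  set y : Ix X → RM X := fun i => SB (E0 X) F n i c with hy
  set z : Ix X → RM X := fun j => SB (E0 X) F m j b with hz
  set c3 : Ix X → Ix X → Ix X → RM X := fun x i j =>
    sr (E0 X) (cor F 0 [(x, 0), (i, 0), (j, 0)]) with hc3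
  have e1 : ∀ x, sr (E0 X) (cor F 0 [(x, 0), (c, n), (b, m)]) =
      ∑ i, ∑ j, y i * z j * c3 x i j := fun x => W_trr hF he x c b n m
  simp only [e1]
  have e2 : ∀ x i k, qc F x i k = ∑ l, pi' l k * c3 x i l := by
    intro x i k
    unfold qc
    refine Finset.sum_congr rfl fun l _ => ?_
    rw [smul_cs]; rfl
  have e3 : ∀ k, (UU hF he * SB (E0 X) F n) k c =
      ∑ x, ∑ i, EM hF he x * y i * qc F x i k := by
    intro k
    rw [Matrix.mul_apply, Finset.sum_comm]
    refine Finset.sum_congr rfl fun i _ => ?_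
    rw [UU_apply, Finset.sum_mul]
    refine Finset.sum_congr rfl fun x _ => ?_
    rw [hy]
    ring
  calc ∑ x, EM hF he x * ∑ i, ∑ j, y i * z j * c3 x i j
      = ∑ x, ∑ i, ∑ j, EM hF he x * y i * z j * ∑ k, pa k j * ∑ l, pi' l k * c3 x i l := by
        refine Finset.sum_congr rfl fun x _ => ?_
        simp only [Finset.mul_sum (f := fun i => ∑ j, y i * z j * c3 x i j)]
        refine Finset.sum_congr rfl fun i _ => ?_
        rw [Finset.mul_sum]
        refine Finset.sum_congr rfl fun j _ => ?_
        rw [low_raise he (fun l => c3 x i l) j]; ring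
    _ = ∑ x, ∑ i, ∑ j, ∑ k, EM hF he x * y i * z j * (pa k j * qc F x i k) := by
        refine Finset.sum_congr rfl fun x _ => Finset.sum_congr rfl fun i _ =>
          Finset.sum_congr rfl fun j _ => ?_
        rw [Finset.mul_sum]
        refine Finset.sum_congr rfl fun k _ => ?_
        rw [e2]
    _ = ∑ k, ∑ l, (UU hF he * SB (E0 X) F n) k c * z l * pa k l := by
        simp only [e3, Finset.sum_mul]
        conv_lhs => enter [2, x, 2, i]; rw [Finset.sum_comm]
        conv_lhs => enter [2, x]; rw [Finset.sum_comm]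
        rw [Finset.sum_comm]
        refine Finset.sum_congr rfl fun k _ => ?_
        conv_lhs => enter [2, x]; rw [Finset.sum_comm]
        rw [Finset.sum_comm]
        refine Finset.sum_congr rfl fun l _ => Finset.sum_congr rfl fun x _ =>
          Finset.sum_congr rfl fun i _ => ?_
        ring

/-- the trace -/
theorem str_part (g : ℂ → ℂ) (i n m : ℕ) :
    strB X (nx X) (UU hF he * (SB (E0 X) F n * RBcl X (nx X) ^ i * fmu X (nx X) g * STB F m)) =
    ∑ a, ∑ b, ∑ c, cs X (g (mu X a) * pairingInv X a b * c1pow X i a c) *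
        ∑ x, EM hF he x * sr (E0 X) (cor F 0 [(x, 0), (c, n), (b, m)]) := by
  have e0 : UU hF he * (SB (E0 X) F n * RBcl X (nx X) ^ i * fmu X (nx X) g * STB F m) =
      (UU hF he * SB (E0 X) F n * (RBcl X (nx X) ^ i * fmu X (nx X) g)) * STB F m := by
    simp only [mul_assoc]
  change Matrix.trace _ = _
  rw [e0, Matrix.trace_mul_comm]
  unfold Matrix.trace
  refine Finset.sum_congr rfl fun a _ => ?_
  rw [Matrix.diag_apply, Matrix.mul_apply]
  have e1 : ∀ k, (UU hF he * SB (E0 X) F n * (RBcl X (nx X) ^ i * fmu X (nx X) g)) k a =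
      ∑ c, (UU hF he * SB (E0 X) F n) k c * (cs X (c1pow X i a c) * cs X (g (mu X a))) := by
    intro k
    rw [Matrix.mul_apply]
    refine Finset.sum_congr rfl fun c _ => ?_
    unfold fmu
    rw [Matrix.mul_diagonal, Rpow_apply, cb_eq]
  simp only [e1, ST_apply he, euler_part hF he]
  have e2 : ∀ b, (pi' b a : RM X) = cs X (pairingInv X a b) := fun b => pi_symm he b a
  simp only [e2]
  calc ∑ k, (∑ b, cs X (pairingInv X a b) * ∑ l, pa k l * SB (E0 X) F m l b) *
        ∑ c, (UU hF he * SB (E0 X) F n) k c * (cs X (c1pow X i a c) * cs X (g (mu X a)))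
      = ∑ k, ∑ b, ∑ l, ∑ c, cs X (g (mu X a) * pairingInv X a b * c1pow X i a c) *
        ((UU hF he * SB (E0 X) F n) k c * SB (E0 X) F m l b * pa k l) := by
        refine Finset.sum_congr rfl fun k _ => ?_
        rw [Finset.sum_mul]
        refine Finset.sum_congr rfl fun b _ => ?_
        rw [Finset.mul_sum (f := fun l => pa k l * SB (E0 X) F m l b), Finset.sum_mul]
        refine Finset.sum_congr rfl fun l _ => ?_
        rw [Finset.mul_sum]
        refine Finset.sum_congr rfl fun c _ => ?_
        rw [map_mul, map_mul]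
        ring
    _ = ∑ b, ∑ c, ∑ k, ∑ l, cs X (g (mu X a) * pairingInv X a b * c1pow X i a c) *
        ((UU hF he * SB (E0 X) F n) k c * SB (E0 X) F m l b * pa k l) := by
        rw [Finset.sum_comm]
        refine Finset.sum_congr rfl fun b _ => ?_
        conv_lhs => enter [2, k]; rw [Finset.sum_comm]
        rw [Finset.sum_comm]
    _ = _ := by
        refine Finset.sum_congr rfl fun b _ => Finset.sum_congr rfl fun c _ => ?_
        rw [Finset.mul_sum]
        refine Finset.sum_congr rfl fun k _ => ?_
        rw [Finset.mul_sum]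

end Vale.Agent.P269.G2.H780.Lp
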